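import Vale.Agent.Lib.P071.Domain

open Metric Complex InnerProductSpace Laplacian

namespace Vale.Agent.Results.P071.A_NoCrit

/-- Let `Ω = ψ(D)` be a bounded simply connected domain with analytic boundary, `ψ` analytic and
injective near the closed unit disc, `ψ' ≠ 0`. Let `N = K - c log ‖y - ψ q‖`, `K` of class `C²` near
the closure of `Ω`, be a Neumann function with pole at the boundary point `ψ q`:
`Δ N = C > 0` in `Ω` and the outward normal derivative vanishes on `∂Ω` except at the pole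
(the outward unit normal at `ψ z` is `z ψ'(z)/|ψ'(z)|`). Then `N` has no critical point in `Ω`. -/
theorem result {ψ : ℂ → ℂ} {R : ℝ} (hR : 1 < R) (hψ : DifferentiableOn ℂ ψ (ball 0 R))
    (hinj : Set.InjOn ψ (closedBall 0 1)) (hψ' : ∀ z ∈ closedBall (0 : ℂ) 1, deriv ψ z ≠ 0)
    {q : ℂ} (hq : ‖q‖ = 1) {U : Set ℂ} (hU : IsOpen U) (hUψ : ψ '' closedBall 0 1 ⊆ U)
    {K : ℂ → ℝ} (hK : ContDiffOn ℝ 2 K U) {C c : ℝ} (hC : 0 < C) {N : ℂ → ℝ}
    (hN : N = fun y => K y - c * Real.log ‖y - ψ q‖)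
    (hΔ : ∀ y ∈ ψ '' ball 0 1, Δ N y = C)
    (hBC : ∀ z : ℂ, ‖z‖ = 1 → z ≠ q → fderiv ℝ N (ψ z) (z * deriv ψ z / (‖deriv ψ z‖ : ℂ)) = 0) :
    ∀ y ∈ ψ '' ball 0 1, fderiv ℝ N y ≠ 0 :=
  P071.no_critical hR hψ hinj hψ' hq hU hUψ hK hC hN hΔ hBC

end Vale.Agent.Results.P071.A_NoCrit
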